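import Mathlib
import Vale.Agent.Lib.P334.RealFinal

/-!
Metric k-median with all client-facility distances between m and 4m:
every feasible solution of the standard LP relaxation rounds to an integral solution
of cost at most 1.99 times the LP cost.
-/

theorem Vale.Agent.Results.P334.AspectRatioFour.result
    {X : Type*} [MetricSpace X] (J F : Finset X) (k : ℕ)
    (hk1 : 1 ≤ k) (hkF : k ≤ F.card) (m : ℝ) (hm : 0 < m)
    (hd : ∀ j ∈ J, ∀ i ∈ F, m ≤ dist j i ∧ dist j i ≤ 4 * m)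
    (x : X → X → ℝ) (y : X → ℝ)
    (hy0 : ∀ i ∈ F, 0 ≤ y i) (hy1 : ∀ i ∈ F, y i ≤ 1) (hyk : ∑ i ∈ F, y i ≤ k)
    (hx0 : ∀ j ∈ J, ∀ i ∈ F, 0 ≤ x j i) (hxy : ∀ j ∈ J, ∀ i ∈ F, x j i ≤ y i)
    (hx1 : ∀ j ∈ J, ∑ i ∈ F, x j i = 1) :
    ∃ (S : Finset X) (hS : S.Nonempty), S ⊆ F ∧ S.card ≤ k ∧
      ∑ j ∈ J, S.inf' hS (fun i => dist j i)
        ≤ 1.99 * ∑ j ∈ J, ∑ i ∈ F, x j i * dist j i :=
  Vale.Agent.Lib.P334.real_final J F k hk1 hkF m hm hd x y hy0 hy1 hyk hx0 hxy hx1
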