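import Mathlib
import Vale.Agent.Results.P334.AspectRatioFour
import Vale.Agent.Results.P334.IntegerDistanceRounding

/-- LP rounding for metric k-median: factor `1.99` when distances lie in `[m, 4 m]` and factor
`1 + 2 / e` when distances are integers in `{1, 2, 3, 4, 5}`. -/
theorem Vale.Agent.Results.P334.A0Conj.result.{u} :
    (∀ {X : Type u} [MetricSpace X] (J F : Finset X) (k : ℕ)
      (_ : 1 ≤ k) (_ : k ≤ F.card) (m : ℝ) (_ : 0 < m)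
      (_ : ∀ j ∈ J, ∀ i ∈ F, m ≤ dist j i ∧ dist j i ≤ 4 * m)
      (x : X → X → ℝ) (y : X → ℝ)
      (_ : ∀ i ∈ F, 0 ≤ y i) (_ : ∀ i ∈ F, y i ≤ 1) (_ : ∑ i ∈ F, y i ≤ k)
      (_ : ∀ j ∈ J, ∀ i ∈ F, 0 ≤ x j i) (_ : ∀ j ∈ J, ∀ i ∈ F, x j i ≤ y i)
      (_ : ∀ j ∈ J, ∑ i ∈ F, x j i = 1),
      ∃ (S : Finset X) (hS : S.Nonempty), S ⊆ F ∧ S.card ≤ k ∧
        ∑ j ∈ J, S.inf' hS (fun i => dist j i)
          ≤ 1.99 * ∑ j ∈ J, ∑ i ∈ F, x j i * dist j i) ∧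
    (∀ {X : Type u} [MetricSpace X] (J F : Finset X) (k : ℕ)
      (_ : 1 ≤ k) (_ : k ≤ F.card)
      (_ : ∀ j ∈ J, ∀ i ∈ F, ∃ n : ℕ, 1 ≤ n ∧ n ≤ 5 ∧ dist j i = n)
      (x : X → X → ℝ) (y : X → ℝ)
      (_ : ∀ i ∈ F, 0 ≤ y i) (_ : ∀ i ∈ F, y i ≤ 1) (_ : ∑ i ∈ F, y i ≤ k)
      (_ : ∀ j ∈ J, ∀ i ∈ F, 0 ≤ x j i) (_ : ∀ j ∈ J, ∀ i ∈ F, x j i ≤ y i)
      (_ : ∀ j ∈ J, ∑ i ∈ F, x j i = 1),
      ∃ (S : Finset X) (hS : S.Nonempty), S ⊆ F ∧ S.card ≤ k ∧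
        ∑ j ∈ J, S.inf' hS (fun i => dist j i)
          ≤ (1 + 2 * Real.exp (-1)) * ∑ j ∈ J, ∑ i ∈ F, x j i * dist j i) :=
  ⟨fun J F k h1 h2 m hm hd x y a b c d e f =>
      Vale.Agent.Results.P334.AspectRatioFour.result J F k h1 h2 m hm hd x y a b c d e f,
    fun J F k h1 h2 hd x y a b c d e f =>
      Vale.Agent.Results.P334.IntegerDistanceRounding.result J F k h1 h2 hd x y a b c d e f⟩
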